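import Vale.Agent.P355.H138.TD.ABC.Ky
import Vale.Agent.P355.H41.C27.Fin
import Vale.Agent.P355.H191.Final

namespace Vale.Agent.Results.P355.AtMostFive

open Vale.Agent.P355

/-- **`N(6) ≤ 5`.** Any `n` orthonormal bases of `ℂ⁶` that are pairwise mutually unbiased satisfy
`n ≤ 5`. -/
theorem result (n : ℕ) (v : Fin n → Fin 6 → Fin 6 → ℂ)
    (hv : ∀ i k l, ∑ r, star (v i k r) * v i l r = if k = l then 1 else 0)
    (hu : ∀ i j, i ≠ j → ∀ k l, ‖∑ r, star (v i k r) * v j l r‖ ^ 2 = 1 / 6) : n ≤ 5 :=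
  H191.five_of_no_seven H41.C27.no_seven n v hv hu

end Vale.Agent.Results.P355.AtMostFive
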