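import Vale.Agent.P355.H182.Triple

namespace Vale.Agent.Results.P355.TripleStructure

open Vale.Agent.P355 Matrix

/-- For every choice of three of the six rows, the sum over the columns of the product of the three
entries in these rows with the conjugates of the three entries in the other rows vanishes. -/
def TripleMomentsVanish (U : M6) : Prop :=
  ∀ e : Equiv.Perm (Fin 6),
    ∑ c, U (e 0) c * U (e 1) c * U (e 2) c * star (U (e 3) c * U (e 4) c * U (e 5) c) = 0

/-- The matrix of the squares of the entries of `U` has pairwise orthogonal rows. -/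
def SquareOrthogonal (U : M6) : Prop :=
  ∀ r s, r ≠ s → ∑ c, U r c ^ 2 * star (U s c ^ 2) = 0

/-- Every complex Hadamard matrix of order six (here: every flat unitary matrix) has vanishing
triple moments or is square orthogonal; if it is the transition matrix of two bases that belong to
some three mutually unbiased bases, then it has vanishing triple moments and is not square
orthogonal. -/
theorem result :
    (∀ U : M6, Unitary6 U → (∀ r c, Complex.normSq (U r c) = 1 / 6) →
      TripleMomentsVanish U ∨ SquareOrthogonal U) ∧
    (∀ n : ℕ, 3 ≤ n → ∀ B : Fin n → M6, IsMUBs B → ∀ i j : Fin n, i ≠ j →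
      TripleMomentsVanish ((B i).conjTranspose * B j) ∧
      ¬ SquareOrthogonal ((B i).conjTranspose * B j)) := by
  have e1 : ∀ U : M6, H693.N7p U ↔ TripleMomentsVanish U := by
    intro U
    unfold H693.N7p TripleMomentsVanish
    simp only [star_mul']
  have e2 : ∀ U : M6, H693.S6p U ↔ SquareOrthogonal U := by
    intro U
    unfold H693.S6p SquareOrthogonal
    simp only [star_pow, mul_pow]
  refine ⟨fun U hU hf => ?_, fun n hn B hB i j hij => ?_⟩
  · rcases H182.dichotomy hU hf with h | h
    · exact Or.inl ((e1 U).1 h)
    · exact Or.inr ((e2 U).1 h)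
  · obtain ⟨k, hik, hjk⟩ : ∃ k : Fin n, i ≠ k ∧ j ≠ k := by
      by_contra hk
      push_neg at hk
      have hc : (Finset.univ : Finset (Fin n)) ⊆ {i, j} := by
        intro k _
        by_cases h : i = k
        · simp [h]
        · simp [hk k h]
      have h1 := Finset.card_le_card hc
      have h2 : ({i, j} : Finset (Fin n)).card ≤ 2 := Finset.card_le_two
      simp at h1
      omega
    obtain ⟨h1, h2⟩ := H182.triple (hB.1 i) (hB.1 j) (hB.1 k) (hB.2 i j hij) (hB.2 i k hik)
      (hB.2 j k hjk)
    exact ⟨(e1 _).1 h1, fun h => h2 ((e2 _).2 h)⟩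

end Vale.Agent.Results.P355.TripleStructure
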