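import Vale.Agent.P355.H182K.Fin
import Vale.Agent.P355.H951.Defs
import Vale.Agent.Results.P355.AtMostFive
import Vale.Agent.Results.P355.TripleStructure
import Vale.Agent.Results.P355.NoSymmetry

namespace Vale.Agent.Results.P355.AllParts

open Vale.Agent.P355 Vale.Agent.P355.H951 Matrix

/-- **Mutually unbiased bases of `ℂ⁶`.**

1. `N(6) ≤ 5`: any `n` pairwise mutually unbiased orthonormal bases of `ℂ⁶` satisfy `n ≤ 5`.
2. Every flat unitary matrix of order six has vanishing triple moments or is square orthogonal.
3. The transition matrix of any two bases that belong to three or more mutually unbiased bases has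
   vanishing triple moments and is not square orthogonal.
4. Four or more mutually unbiased bases have only scalar unitary symmetries, and a unitary that
   permutes the bases is determined, up to a scalar, by its permutation of the bases. -/
theorem result :
    (∀ (n : ℕ) (v : Fin n → Fin 6 → Fin 6 → ℂ),
      (∀ i k l, ∑ r, star (v i k r) * v i l r = if k = l then 1 else 0) →
      (∀ i j, i ≠ j → ∀ k l, ‖∑ r, star (v i k r) * v j l r‖ ^ 2 = 1 / 6) → n ≤ 5) ∧
    (∀ U : M6, Unitary6 U → (∀ r c, Complex.normSq (U r c) = 1 / 6) →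
      TripleMomentsVanish U ∨ SquareOrthogonal U) ∧
    (∀ n : ℕ, 3 ≤ n → ∀ B : Fin n → M6, IsMUBs B → ∀ i j : Fin n, i ≠ j →
      TripleMomentsVanish ((B i).conjTranspose * B j) ∧
      ¬ SquareOrthogonal ((B i).conjTranspose * B j)) ∧
    (∀ n : ℕ, 4 ≤ n → ∀ B : Fin n → M6, IsMUBs B →
      (∀ U, IsSymmetry B U → IsMultiple U 1) ∧
      (∀ U V, Unitary6 U → Unitary6 V → SameAction B U V → IsMultiple U V)) :=
  ⟨fun n v hv hu => AtMostFive.result n v hv hu, TripleStructure.result.1,
    TripleStructure.result.2, fun n hn B hB => NoSymmetry.result (n := n) hn B hB⟩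

end Vale.Agent.Results.P355.AllParts
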