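import Vale.Agent.P355.H693D.Nf
import Vale.Agent.P355.H191.Final2

namespace Vale.Agent.Results.P355.AtMostFour

open Vale.Agent.P355

/-- **`N(6) ≤ 4`.** Any `n` orthonormal bases of `ℂ⁶` that are pairwise mutually unbiased satisfy
`n ≤ 4`. -/
theorem result (n : ℕ) (v : Fin n → Fin 6 → Fin 6 → ℂ)
    (hv : ∀ i k l, ∑ r, star (v i k r) * v i l r = if k = l then 1 else 0)
    (hu : ∀ i j, i ≠ j → ∀ k l, ‖∑ r, star (v i k r) * v j l r‖ ^ 2 = 1 / 6) : n ≤ 4 :=
  H191.four_of_no_five H693D.no_five' n v hv hu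

end Vale.Agent.Results.P355.AtMostFour
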